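import Vale.Agent.P154.R4.BilC
import Vale.Agent.P154.R4.KForm

/-!
# P154 q = 4, binary tree: symmetric sums as polynomials in three basic invariants

`pol3 A B C T` is the polynomial `∑ c A^i B^j C^k` over the entries `(c, i, j, k)` of the table `T`, `ev3T` its real value.
`sm_fa`: a symmetric sum in `20 (1 + a i)` is a polynomial in the power sums of `a`.
`sm_fu`: a symmetric sum in `1600 u i` is a polynomial in the elementary symmetric functions of `u`.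
-/

namespace Vale.Agent.P154.B4

open Finset

abbrev T3 := List (ℤ × ℕ × ℕ × ℕ)

def pol3 (A B C : P4) : T3 → P4
  | [] => []
  | (c, i, j, k) :: L => ax4 c (mul4 (mul4 (pow4 A i) (pow4 B j)) (pow4 C k)) (pol3 A B C L)

noncomputable def ev3T (x y z : ℝ) : T3 → ℝ
  | [] => 0
  | (c, i, j, k) :: L => (c : ℝ) * (x ^ i * y ^ j * z ^ k) + ev3T x y z L

theorem ev4_pol3 (u0 u1 u2 u3 : ℝ) (A B C : P4) (L : T3) :
    ev4 u0 u1 u2 u3 (pol3 A B C L) =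
      ev3T (ev4 u0 u1 u2 u3 A) (ev4 u0 u1 u2 u3 B) (ev4 u0 u1 u2 u3 C) L := by
  induction L with
  | nil => simp [pol3, ev3T, ev4_nil]
  | cons p L ih =>
    obtain ⟨c, i, j, k⟩ := p
    simp only [pol3, ev3T, ev4_ax, ev4_mul, ev4_pow, ih]

def vP0 : P4 := [[], [[[1]]]]
def vP1 : P4 := [[[], [[1]]]]
def vP2 : P4 := [[[[], [1]]]]
def vP3 : P4 := [[[[0, 1]]]]

theorem ev4_vP0 (u0 u1 u2 u3 : ℝ) : ev4 u0 u1 u2 u3 vP0 = u0 := by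
  simp [vP0, ev4, ev3, ev2, ev1, evL]
theorem ev4_vP1 (u0 u1 u2 u3 : ℝ) : ev4 u0 u1 u2 u3 vP1 = u1 := by
  simp [vP1, ev4, ev3, ev2, ev1, evL]
theorem ev4_vP2 (u0 u1 u2 u3 : ℝ) : ev4 u0 u1 u2 u3 vP2 = u2 := by
  simp [vP2, ev4, ev3, ev2, ev1, evL]
theorem ev4_vP3 (u0 u1 u2 u3 : ℝ) : ev4 u0 u1 u2 u3 vP3 = u3 := by
  simp [vP3, ev4, ev3, ev2, ev1, evL]

/-- power sums -/
def psP (n : ℕ) : P4 := add4 (add4 (add4 (pow4 vP0 n) (pow4 vP1 n)) (pow4 vP2 n)) (pow4 vP3 n)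

theorem ev4_psP (u0 u1 u2 u3 : ℝ) (n : ℕ) :
    ev4 u0 u1 u2 u3 (psP n) = u0 ^ n + u1 ^ n + u2 ^ n + u3 ^ n := by
  simp only [psP, ev4_add, ev4_pow, ev4_vP0, ev4_vP1, ev4_vP2, ev4_vP3]

def e1P : P4 := lin4 1 1 1 1 0

def e2P : P4 :=
  add4 (add4 (add4 (add4 (add4 (mul4 vP0 vP1) (mul4 vP0 vP2)) (mul4 vP0 vP3)) (mul4 vP1 vP2))
    (mul4 vP1 vP3)) (mul4 vP2 vP3)

def e3P : P4 :=
  add4 (add4 (add4 (mul4 (mul4 vP0 vP1) vP2) (mul4 (mul4 vP0 vP1) vP3)) (mul4 (mul4 vP0 vP2) vP3))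
    (mul4 (mul4 vP1 vP2) vP3)

theorem ev4_e1P (u : Fin 4 → ℝ) : ev4 (u 0) (u 1) (u 2) (u 3) e1P = e1Q u := by
  simp only [e1P, ev4_lin, e1Q]
  push_cast
  ring

theorem ev4_e2P (u : Fin 4 → ℝ) : ev4 (u 0) (u 1) (u 2) (u 3) e2P = e2Q u := by
  simp only [e2P, ev4_add, ev4_mul, ev4_vP0, ev4_vP1, ev4_vP2, ev4_vP3, e2Q]

theorem ev4_e3P (u : Fin 4 → ℝ) : ev4 (u 0) (u 1) (u 2) (u 3) e3P = e3Q u := by
  simp only [e3P, ev4_add, ev4_mul, ev4_vP0, ev4_vP1, ev4_vP2, ev4_vP3, e3Q]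

/-- `c + c x_i` and `c x_i` as short nested lists -/
def af0 (c : ℤ) : P4 := [[[[c]]], [[[c]]]]
def af1 (c : ℤ) : P4 := [[[[c]], [[c]]]]
def af2 (c : ℤ) : P4 := [[[[c], [c]]]]
def af3 (c : ℤ) : P4 := [[[[c, c]]]]
def mo0 (c : ℤ) : P4 := [[], [[[c]]]]
def mo1 (c : ℤ) : P4 := [[[], [[c]]]]
def mo2 (c : ℤ) : P4 := [[[[], [c]]]]
def mo3 (c : ℤ) : P4 := [[[[0, c]]]]

theorem ev4_af0 (u0 u1 u2 u3 : ℝ) (c : ℤ) : ev4 u0 u1 u2 u3 (af0 c) = c * (1 + u0) := by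
  simp [af0, ev4, ev3, ev2, ev1, evL]
  ring
theorem ev4_af1 (u0 u1 u2 u3 : ℝ) (c : ℤ) : ev4 u0 u1 u2 u3 (af1 c) = c * (1 + u1) := by
  simp [af1, ev4, ev3, ev2, ev1, evL]
  ring
theorem ev4_af2 (u0 u1 u2 u3 : ℝ) (c : ℤ) : ev4 u0 u1 u2 u3 (af2 c) = c * (1 + u2) := by
  simp [af2, ev4, ev3, ev2, ev1, evL]
  ring
theorem ev4_af3 (u0 u1 u2 u3 : ℝ) (c : ℤ) : ev4 u0 u1 u2 u3 (af3 c) = c * (1 + u3) := by
  simp [af3, ev4, ev3, ev2, ev1, evL]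
  ring
theorem ev4_mo0 (u0 u1 u2 u3 : ℝ) (c : ℤ) : ev4 u0 u1 u2 u3 (mo0 c) = c * u0 := by
  simp [mo0, ev4, ev3, ev2, ev1, evL]
  ring
theorem ev4_mo1 (u0 u1 u2 u3 : ℝ) (c : ℤ) : ev4 u0 u1 u2 u3 (mo1 c) = c * u1 := by
  simp [mo1, ev4, ev3, ev2, ev1, evL]
  ring
theorem ev4_mo2 (u0 u1 u2 u3 : ℝ) (c : ℤ) : ev4 u0 u1 u2 u3 (mo2 c) = c * u2 := by
  simp [mo2, ev4, ev3, ev2, ev1, evL]
  ring
theorem ev4_mo3 (u0 u1 u2 u3 : ℝ) (c : ℤ) : ev4 u0 u1 u2 u3 (mo3 c) = c * u3 := by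
  simp [mo3, ev4, ev3, ev2, ev1, evL]
  ring

/-- the check for `sm_fa` -/
def chkA (D : ℕ) (L : TL) (T : T3) : Bool :=
  zr4 (ax4 (-1) (smP D L (af0 20) (af1 20) (af2 20) (af3 20) (cst4 20))
    (pol3 (psP 2) (psP 3) (psP 4) T))

theorem sm_fa (D : ℕ) (L : TL) (T : T3) (hc : chkA D L T = true) (a : Fin 4 → ℝ) :
    sm D L (20 * (1 + a 0)) (20 * (1 + a 1)) (20 * (1 + a 2)) (20 * (1 + a 3)) 20 =
      ev3T (∑ i, a i ^ 2) (∑ i, a i ^ 3) (∑ i, a i ^ 4) T := by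
  have h := sm_eq_of_chk D L _ _ _ _ _ _ hc (a 0) (a 1) (a 2) (a 3)
  rw [ev4_pol3, ev4_psP, ev4_psP, ev4_psP] at h
  simp only [ev4_af0, ev4_af1, ev4_af2, ev4_af3, ev4_cst] at h
  rw [Fin.sum_univ_four, Fin.sum_univ_four, Fin.sum_univ_four, ← h]
  push_cast
  rfl

/-- the check for `sm_fu` -/
def chkU (D : ℕ) (L : TL) (T : T3) : Bool :=
  zr4 (ax4 (-1) (smP D L (mo0 1600) (mo1 1600) (mo2 1600) (mo3 1600) (cst4 400))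
    (pol3 e1P e2P e3P T))

theorem sm_fu (D : ℕ) (L : TL) (T : T3) (hc : chkU D L T = true) (u : Fin 4 → ℝ) :
    sm D L (1600 * u 0) (1600 * u 1) (1600 * u 2) (1600 * u 3) 400 =
      ev3T (e1Q u) (e2Q u) (e3Q u) T := by
  have h := sm_eq_of_chk D L _ _ _ _ _ _ hc (u 0) (u 1) (u 2) (u 3)
  rw [ev4_pol3, ev4_e1P, ev4_e2P, ev4_e3P] at h
  simp only [ev4_mo0, ev4_mo1, ev4_mo2, ev4_mo3, ev4_cst] at h
  rw [← h]
  push_cast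
  rfl

end Vale.Agent.P154.B4
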