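import Vale.Agent.P154.B4.Master2
import Vale.Agent.P154.B4.Pol3

/-! # P154 q = 4, binary tree: the tables of the certificate X (subadditivity) and their checks -/

namespace Vale.Agent.P154.B4

open Vale.Agent.Util.Polya

def bxLd : TL :=
  [(-276480, 1, 0, 0, 0), (1382400, 1, 1, 0, 0), (-1416960, 1, 1, 1, 0), (-1416960, 2, 1, 0, 0),
  (380160, 1, 1, 1, 1), (1900800, 2, 1, 1, 0), (380160, 2, 2, 0, 0), (380160, 3, 1, 0, 0),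
  (-505440, 2, 1, 1, 1), (-673920, 2, 2, 1, 0), (-393120, 3, 1, 1, 0), (-168480, 3, 2, 0, 0),
  (-56160, 4, 1, 0, 0), (168480, 2, 2, 1, 1), (51840, 2, 2, 2, 0), (69120, 3, 1, 1, 1),
  (190080, 3, 2, 1, 0), (12960, 3, 3, 0, 0), (38880, 4, 1, 1, 0), (17280, 4, 2, 0, 0),
  (4320, 5, 1, 0, 0), (-12150, 2, 2, 2, 1), (-22950, 3, 2, 1, 1), (-10800, 3, 2, 2, 0),
  (-6750, 3, 3, 1, 0), (-3375, 4, 1, 1, 1), (-9450, 4, 2, 1, 0), (-1350, 4, 3, 0, 0),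
  (-1485, 5, 1, 1, 0), (-675, 5, 2, 0, 0), (-135, 6, 1, 0, 0)]

def bxTd : T3 :=
  [(144955146240000000000000000, 0, 1, 0), (-10871635968000000000000000, 1, 0, 0),
  (-297158049792000000000000000, 1, 1, 0), (318901321728000000000000000, 2, 1, 0),
  (-188441690112000000000000000, 3, 1, 0), (57982058496000000000000000, 4, 1, 0),
  (-7247757312000000000000000, 5, 1, 0)]

def bxS0 : TL :=
  [(1, 0, 0, 0, 0), (-2, 1, 0, 0, 0), (1, 2, 0, 0, 0)]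
def bxSt0 : T3 :=
  [(7680000000, 1, 0, 0)]
def bxT0 : TL :=
  [(92160, 0, 0, 0, 0)]
def bxTt0 : T3 :=
  [(2831155200000000, 0, 0, 0)]

def bxS1 : TL :=
  [(1, 0, 0, 0, 0)]
def bxSt1 : T3 :=
  [(30720000000, 0, 0, 0)]
def bxT1 : TL :=
  [(92160, 0, 0, 0, 0), (-184320, 1, 0, 0, 0), (92160, 2, 0, 0, 0)]
def bxTt1 : T3 :=
  [(707788800000000, 1, 0, 0)]

def bxS2 : TL :=
  [(-68, 0, 0, 0, 0), (232, 1, 0, 0, 0), (-84, 1, 1, 0, 0), (-204, 2, 0, 0, 0), (84, 2, 1, 0, 0),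
  (68, 3, 0, 0, 0), (-21, 2, 2, 0, 0), (-7, 4, 0, 0, 0)]
def bxSt2 : T3 :=
  [(307200000000, 0, 1, 0), (-53760000000, 2, 0, 0)]
def bxT2 : TL :=
  [(-1344, 0, 0, 0, 0), (1728, 1, 0, 0, 0), (-576, 1, 1, 0, 0), (2304, 2, 0, 0, 0),
  (-288, 2, 1, 0, 0), (-3360, 3, 0, 0, 0), (288, 2, 2, 0, 0), (576, 3, 1, 0, 0), (1056, 4, 0, 0, 0),
  (-288, 3, 2, 0, 0), (-96, 5, 0, 0, 0)]
def bxTt2 : T3 :=
  [(5898240000000, 0, 0, 1), (1474560000000, 0, 1, 0), (-11796480000000, 1, 0, 0),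
  (-737280000000, 1, 1, 0), (-1474560000000, 2, 0, 0)]

def bxS3 : TL :=
  [(14, 0, 0, 0, 0), (-18, 1, 0, 0, 0), (6, 1, 1, 0, 0), (-24, 2, 0, 0, 0), (3, 2, 1, 0, 0),
  (35, 3, 0, 0, 0), (-3, 2, 2, 0, 0), (-6, 3, 1, 0, 0), (-11, 4, 0, 0, 0), (3, 3, 2, 0, 0),
  (1, 5, 0, 0, 0)]
def bxSt3 : T3 :=
  [(-61440000000, 0, 0, 1), (-15360000000, 0, 1, 0), (122880000000, 1, 0, 0), (7680000000, 1, 1, 0),
  (15360000000, 2, 0, 0)]
def bxT3 : TL :=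
  [(6528, 0, 0, 0, 0), (-22272, 1, 0, 0, 0), (8064, 1, 1, 0, 0), (19584, 2, 0, 0, 0),
  (-8064, 2, 1, 0, 0), (-6528, 3, 0, 0, 0), (2016, 2, 2, 0, 0), (672, 4, 0, 0, 0)]
def bxTt3 : T3 :=
  [(-29491200000000, 0, 1, 0), (5160960000000, 2, 0, 0)]

def bxS4 : TL :=
  [(4, 0, 0, 0, 0), (-16, 1, 0, 0, 0), (12, 1, 1, 0, 0), (12, 2, 0, 0, 0), (-12, 2, 1, 0, 0),
  (-4, 3, 0, 0, 0), (3, 2, 2, 0, 0), (1, 4, 0, 0, 0)]
def bxSt4 : T3 :=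
  [(7680000000, 2, 0, 0)]
def bxT4 : TL :=
  [(-256, 0, 0, 0, 0), (512, 1, 0, 0, 0), (-256, 2, 0, 0, 0)]
def bxTt4 : T3 :=
  [(-1966080000000, 1, 0, 0)]

def bxS5 : TL :=
  [(1, 0, 0, 0, 0), (-2, 1, 0, 0, 0), (1, 2, 0, 0, 0)]
def bxSt5 : T3 :=
  [(7680000000, 1, 0, 0)]
def bxT5 : TL :=
  [(-1024, 0, 0, 0, 0), (4096, 1, 0, 0, 0), (-3072, 1, 1, 0, 0), (-3072, 2, 0, 0, 0),
  (3072, 2, 1, 0, 0), (1024, 3, 0, 0, 0), (-768, 2, 2, 0, 0), (-256, 4, 0, 0, 0)]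
def bxTt5 : T3 :=
  [(-1966080000000, 2, 0, 0)]

def bxXs : List TL := [bxS0, bxS1, bxS2, bxS3, bxS4, bxS5]
def bxXt : List TL := [bxT0, bxT1, bxT2, bxT3, bxT4, bxT5]

def bxP : List (PE × PE) := bPairs 7 (dgS bxLd ++ bxXs) (dgT bxLd ++ bxXt)

theorem bxLd_chk : chkU 7 bxLd bxTd = true := by decide +kernel
theorem bxS0_chk : chkA 7 bxS0 bxSt0 = true := by decide +kernel
theorem bxT0_chk : chkA 7 bxT0 bxTt0 = true := by decide +kernel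
theorem bxS1_chk : chkA 7 bxS1 bxSt1 = true := by decide +kernel
theorem bxT1_chk : chkA 7 bxT1 bxTt1 = true := by decide +kernel
theorem bxS2_chk : chkA 7 bxS2 bxSt2 = true := by decide +kernel
theorem bxT2_chk : chkA 7 bxT2 bxTt2 = true := by decide +kernel
theorem bxS3_chk : chkA 7 bxS3 bxSt3 = true := by decide +kernel
theorem bxT3_chk : chkA 7 bxT3 bxTt3 = true := by decide +kernel
theorem bxS4_chk : chkA 7 bxS4 bxSt4 = true := by decide +kernel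
theorem bxT4_chk : chkA 7 bxT4 bxTt4 = true := by decide +kernel
theorem bxS5_chk : chkA 7 bxS5 bxSt5 = true := by decide +kernel
theorem bxT5_chk : chkA 7 bxT5 bxTt5 = true := by decide +kernel

theorem bx_good : good 7 7 128 bxP = true := by decide +kernel
theorem bx_bnd : 2 * bnd bxP < 2 ^ 128 := by decide +kernel
theorem bx_check : check 128 8 7 bxP 0 (8 * 8) = true := by decide +kernel

end Vale.Agent.P154.B4
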