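import Vale.Agent.P154.B4.DataX
import Vale.Agent.P154.B4.Mult

/-! # P154 q = 4, binary tree: the values of the tables of the certificate X -/

namespace Vale.Agent.P154.B4

open Finset

theorem bxLd_eq (u : Fin 4 → ℝ) :
    sm 7 bxLd (1600 * u 0) (1600 * u 1) (1600 * u 2) (1600 * u 3) 400 =
      -10871635968000000000000000 * GUr (e1Q u) (e2Q u) := by
  rw [sm_fu 7 bxLd bxTd bxLd_chk u]
  generalize e1Q u = e1
  generalize e2Q u = e2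
  generalize e3Q u = e3
  simp only [bxTd, ev3T, FLr, GUr, mL1, mL2, mL3, mM1]
  push_cast
  ring

theorem bxS0_eq (a : Fin 4 → ℝ) :
    sm 7 bxS0 (20 * (1 + a 0)) (20 * (1 + a 1)) (20 * (1 + a 2)) (20 * (1 + a 3)) 20 =
      92160000000 * alQ a := by
  rw [sm_fa 7 bxS0 bxSt0 bxS0_chk a]
  simp only [bxSt0, ev3T, pB, cB, ps4, m4, alQ4]
  push_cast
  ring

theorem bxT0_eq (a : Fin 4 → ℝ) :
    sm 7 bxT0 (20 * (1 + a 0)) (20 * (1 + a 1)) (20 * (1 + a 2)) (20 * (1 + a 3)) 20 =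
      2831155200000000 * 1 := by
  rw [sm_fa 7 bxT0 bxTt0 bxT0_chk a]
  simp only [bxTt0, ev3T, pB, cB, ps4, m4, alQ4]
  push_cast
  ring

theorem bxS1_eq (a : Fin 4 → ℝ) :
    sm 7 bxS1 (20 * (1 + a 0)) (20 * (1 + a 1)) (20 * (1 + a 2)) (20 * (1 + a 3)) 20 =
      30720000000 * 1 := by
  rw [sm_fa 7 bxS1 bxSt1 bxS1_chk a]
  simp only [bxSt1, ev3T, pB, cB, ps4, m4, alQ4]
  push_cast
  ring

theorem bxT1_eq (a : Fin 4 → ℝ) :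
    sm 7 bxT1 (20 * (1 + a 0)) (20 * (1 + a 1)) (20 * (1 + a 2)) (20 * (1 + a 3)) 20 =
      8493465600000000 * alQ a := by
  rw [sm_fa 7 bxT1 bxTt1 bxT1_chk a]
  simp only [bxTt1, ev3T, pB, cB, ps4, m4, alQ4]
  push_cast
  ring

theorem bxS2_eq (a : Fin 4 → ℝ) :
    sm 7 bxS2 (20 * (1 + a 0)) (20 * (1 + a 1)) (20 * (1 + a 2)) (20 * (1 + a 3)) 20 =
      3686400000000 * ps4 (21 / 10) a := by
  rw [sm_fa 7 bxS2 bxSt2 bxS2_chk a]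
  simp only [bxSt2, ev3T, pB, cB, ps4, m4, alQ4]
  push_cast
  ring

theorem bxT2_eq (a : Fin 4 → ℝ) :
    sm 7 bxT2 (20 * (1 + a 0)) (20 * (1 + a 1)) (20 * (1 + a 2)) (20 * (1 + a 3)) 20 =
      -70778880000000 * pB a := by
  rw [sm_fa 7 bxT2 bxTt2 bxT2_chk a]
  simp only [bxTt2, ev3T, pB, cB, ps4, m4, alQ4]
  push_cast
  ring

theorem bxS3_eq (a : Fin 4 → ℝ) :
    sm 7 bxS3 (20 * (1 + a 0)) (20 * (1 + a 1)) (20 * (1 + a 2)) (20 * (1 + a 3)) 20 =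
      737280000000 * pB a := by
  rw [sm_fa 7 bxS3 bxSt3 bxS3_chk a]
  simp only [bxSt3, ev3T, pB, cB, ps4, m4, alQ4]
  push_cast
  ring

theorem bxT3_eq (a : Fin 4 → ℝ) :
    sm 7 bxT3 (20 * (1 + a 0)) (20 * (1 + a 1)) (20 * (1 + a 2)) (20 * (1 + a 3)) 20 =
      -353894400000000 * ps4 (21 / 10) a := by
  rw [sm_fa 7 bxT3 bxTt3 bxT3_chk a]
  simp only [bxTt3, ev3T, pB, cB, ps4, m4, alQ4]
  push_cast
  ring

theorem bxS4_eq (a : Fin 4 → ℝ) :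
    sm 7 bxS4 (20 * (1 + a 0)) (20 * (1 + a 1)) (20 * (1 + a 2)) (20 * (1 + a 3)) 20 =
      1105920000000 * alQ a ^ 2 := by
  rw [sm_fa 7 bxS4 bxSt4 bxS4_chk a]
  simp only [bxSt4, ev3T, pB, cB, ps4, m4, alQ4]
  push_cast
  ring

theorem bxT4_eq (a : Fin 4 → ℝ) :
    sm 7 bxT4 (20 * (1 + a 0)) (20 * (1 + a 1)) (20 * (1 + a 2)) (20 * (1 + a 3)) 20 =
      -23592960000000 * alQ a := by
  rw [sm_fa 7 bxT4 bxTt4 bxT4_chk a]
  simp only [bxTt4, ev3T, pB, cB, ps4, m4, alQ4]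
  push_cast
  ring

theorem bxS5_eq (a : Fin 4 → ℝ) :
    sm 7 bxS5 (20 * (1 + a 0)) (20 * (1 + a 1)) (20 * (1 + a 2)) (20 * (1 + a 3)) 20 =
      92160000000 * alQ a := by
  rw [sm_fa 7 bxS5 bxSt5 bxS5_chk a]
  simp only [bxSt5, ev3T, pB, cB, ps4, m4, alQ4]
  push_cast
  ring

theorem bxT5_eq (a : Fin 4 → ℝ) :
    sm 7 bxT5 (20 * (1 + a 0)) (20 * (1 + a 1)) (20 * (1 + a 2)) (20 * (1 + a 3)) 20 =
      -283115520000000 * alQ a ^ 2 := by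
  rw [sm_fa 7 bxT5 bxTt5 bxT5_chk a]
  simp only [bxTt5, ev3T, pB, cB, ps4, m4, alQ4]
  push_cast
  ring

end Vale.Agent.P154.B4
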